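import Vale.Agent.Lib.P361.AllBetaFinal

namespace Vale.Agent.Results.P361.BlochAllTemperatures

open Vale.Agent.Lib.P361 Filter Topology MeasureTheory

/-- Spin-wave upper bounds on the spontaneous magnetization of the spin-`S = (d-1)/2`
nearest-neighbour Heisenberg ferromagnet on `ℤ^3`, with nothing assumed: there are functions `p`
and `m` such that

* for every `β > 0` and every `h`, the finite-volume pressures `pressure d N β h` of the cubes
  `{-N..N}^3` converge to `p β h` as `N → ∞`;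
* for every `β > 0`, `m β` is the right derivative of `h ↦ p β h` at `h = 0` (the spontaneous
  magnetization);
* for every `β > 0` with `m β > 0`,
  `(m/S) (2π)^{-3} ∫_{[-π,π]^3} dk / (exp(β (S/m) ε(k)) - 1) ≤ S - m`, where `m = m β` and
  `ε(k) = S ∑_j (2 - 2 cos k_j)` is the one-magnon dispersion (the integrand is integrable);
* `liminf_{β → ∞} β^{3/2} (S - m β) ≥ ζ(3/2) / (8 π^{3/2} S^{3/2})`. -/
theorem result (d : ℕ) (hd : 2 ≤ d) :
    ∃ p : ℝ → ℝ → ℝ, ∃ m : ℝ → ℝ,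
      (∀ β, 0 < β → ∀ h, Tendsto (fun N => pressure d N β h) atTop (𝓝 (p β h))) ∧
      (∀ β, 0 < β → HasDerivWithinAt (p β) (m β) (Set.Ici 0) 0) ∧
      (∀ β, 0 < β → 0 < m β →
        IntegrableOn (fun k : Fin 3 → ℝ =>
            1 / (Real.exp (β * (((d : ℝ) - 1) / 2) ^ 2 / m β *
              ∑ j, (2 - 2 * Real.cos (k j))) - 1))
          (Set.pi Set.univ fun _ => Set.Icc (-Real.pi) Real.pi) ∧
        m β / (((d : ℝ) - 1) / 2) * (1 / (2 * Real.pi) ^ 3 *
          ∫ k in Set.pi Set.univ (fun _ : Fin 3 => Set.Icc (-Real.pi) Real.pi),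
            1 / (Real.exp (β * (((d : ℝ) - 1) / 2) ^ 2 / m β *
              ∑ j, (2 - 2 * Real.cos (k j))) - 1)) ≤ ((d : ℝ) - 1) / 2 - m β) ∧
      ∀ c, c < (riemannZeta (3 / 2)).re /
          (8 * Real.pi ^ (3 / 2 : ℝ) * (((d : ℝ) - 1) / 2) ^ (3 / 2 : ℝ)) →
        ∀ᶠ β in atTop, c ≤ β ^ (3 / 2 : ℝ) * (((d : ℝ) - 1) / 2 - m β) :=
  bloch_upper_allbeta_full d hd

end Vale.Agent.Results.P361.BlochAllTemperatures
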