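import Vale.Agent.Lib.P361.Final

namespace Vale.Agent.Results.P361.BlochUpperBound

open Vale.Agent.Lib.P361 Filter Topology

/-- One half of Bloch's law for the spin-`S = (d-1)/2` nearest-neighbour Heisenberg ferromagnet
on `ℤ^3`: if `p β h` is the thermodynamic limit of the pressure and `m β` its right derivative
in `h` at `h = 0` (the spontaneous magnetization), then
`liminf_{β → ∞} β^{3/2} (S - m β) ≥ ζ(3/2) / (8 π^{3/2} S^{3/2})`. -/
theorem result (d : ℕ) (hd : 2 ≤ d) (p : ℝ → ℝ → ℝ) (m : ℝ → ℝ)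
    (hp : ∀ β, 0 < β → ∀ h, Tendsto (fun N => pressure d N β h) atTop (𝓝 (p β h)))
    (hm : ∀ β, 0 < β → HasDerivWithinAt (p β) (m β) (Set.Ici 0) 0) :
    ∀ c, c < (riemannZeta (3 / 2)).re /
        (8 * Real.pi ^ (3 / 2 : ℝ) * (((d : ℝ) - 1) / 2) ^ (3 / 2 : ℝ)) →
      ∀ᶠ β in atTop, c ≤ β ^ (3 / 2 : ℝ) * (((d : ℝ) - 1) / 2 - m β) :=
  bloch_upper d hd p m hp hm

end Vale.Agent.Results.P361.BlochUpperBound
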