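import Vale.Agent.Lib.P361.helper5.FinalLimsup

namespace Vale.Agent.Results.P361.BlochUpperBoundUnconditional

open Vale.Agent.Lib.P361 Filter Topology

/-- One half of Bloch's law for the spin-`S = (d-1)/2` nearest-neighbour Heisenberg ferromagnet
on `ℤ^3`, with no hypothesis. The pressure is `P β h = limsup_N pressure d N β h` (the upper
limit of the finite-volume pressures; it is the thermodynamic limit whenever that exists). There
is a function `m` such that, for every `β > 0`, `m β` is the right derivative of `h ↦ P β h` at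
`h = 0` (the spontaneous magnetization), and
`liminf_{β → ∞} β^{3/2} (S - m β) ≥ ζ(3/2) / (8 π^{3/2} S^{3/2})`. -/
theorem result (d : ℕ) (hd : 2 ≤ d) :
    ∃ m : ℝ → ℝ,
      (∀ β, 0 < β → HasDerivWithinAt (fun h => limsup (fun N => pressure d N β h) atTop)
        (m β) (Set.Ici 0) 0) ∧
      ∀ c, c < (riemannZeta (3 / 2)).re /
          (8 * Real.pi ^ (3 / 2 : ℝ) * (((d : ℝ) - 1) / 2) ^ (3 / 2 : ℝ)) →
        ∀ᶠ β in atTop, c ≤ β ^ (3 / 2 : ℝ) * (((d : ℝ) - 1) / 2 - m β) :=
  bloch_upper_unconditional d hd

end Vale.Agent.Results.P361.BlochUpperBoundUnconditional
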