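import Vale.Agent.Lib.P361.Limit

namespace Vale.Agent.Results.P361.BlochWithLimit

open Vale.Agent.Lib.P361 Filter Topology

/-- One half of Bloch's law for the spin-`S = (d-1)/2` nearest-neighbour Heisenberg ferromagnet
on `ℤ^3`, with nothing assumed: there are functions `p` and `m` such that

* for every `β > 0` and every `h`, the finite-volume pressures `pressure d N β h` of the cubes
  `{-N..N}^3` converge to `p β h` as `N → ∞` (existence of the thermodynamic limit);
* for every `β > 0`, `m β` is the right derivative of `h ↦ p β h` at `h = 0` (the spontaneous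
  magnetization);
* `liminf_{β → ∞} β^{3/2} (S - m β) ≥ ζ(3/2) / (8 π^{3/2} S^{3/2})`. -/
theorem result (d : ℕ) (hd : 2 ≤ d) :
    ∃ p : ℝ → ℝ → ℝ, ∃ m : ℝ → ℝ,
      (∀ β, 0 < β → ∀ h, Tendsto (fun N => pressure d N β h) atTop (𝓝 (p β h))) ∧
      (∀ β, 0 < β → HasDerivWithinAt (p β) (m β) (Set.Ici 0) 0) ∧
      ∀ c, c < (riemannZeta (3 / 2)).re /
          (8 * Real.pi ^ (3 / 2 : ℝ) * (((d : ℝ) - 1) / 2) ^ (3 / 2 : ℝ)) →
        ∀ᶠ β in atTop, c ≤ β ^ (3 / 2 : ℝ) * (((d : ℝ) - 1) / 2 - m β) :=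
  bloch_upper_full d hd

end Vale.Agent.Results.P361.BlochWithLimit
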